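import Vale.Agent.P146.All2
import Vale.Agent.P146L.Anti

open MeasureTheory ProbabilityTheory Vale.Agent.P146

/-- Polynomial fluctuations of the SK free energy at low temperature. -/
theorem Vale.Agent.Results.P146.Fluct.result :
    ∀ β : ℝ, 1 < β → ∀ ε : ℝ, 0 < ε → ∃ c C : ℝ, 0 < c ∧ ∃ n₀ : ℕ, ∀ n : ℕ, n₀ ≤ n →
      (∀ b : ℝ, (disorder n).real {g | b ≤ freeEnergy n β g ∧
        freeEnergy n β g ≤ b + c * (n : ℝ) ^ (1 / 2000 : ℝ)} ≤ 1 / 2) ∧
      c * (n : ℝ) ^ (1 / 1000 : ℝ) ≤ variance (freeEnergy n β) (disorder n) ∧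
      variance (freeEnergy n β) (disorder n) ≤ C * (n : ℝ) ^ (2 / 3 + ε) := by
  intro β hβ ε hε
  obtain ⟨c, hc, n₀, h⟩ := Vale.Agent.P146L.lower_main β hβ
  obtain ⟨c', hc', n₁, h'⟩ := Vale.Agent.P146L.anti hβ
  obtain ⟨C, hC⟩ := Vale.Agent.P146.main2 β ε hε
  refine ⟨min c c', C, lt_min hc hc', max (max n₀ n₁) 1, fun n hn => ⟨fun b => ?_, ?_,
    hC n ((le_max_right _ _).trans hn)⟩⟩
  · have hP : IsProbabilityMeasure (disorder n) := by
      unfold disorder
      infer_instance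
    refine le_trans (measureReal_mono ?_)
      (h' n ((le_max_right _ _).trans ((le_max_left _ _).trans hn)) b)
    refine fun g hg => ⟨hg.1, hg.2.trans ?_⟩
    have := min_le_right c c'
    gcongr
  · refine le_trans ?_ (h n ((le_max_left _ _).trans ((le_max_left _ _).trans hn)))
    have := min_le_left c c'
    gcongr
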