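import Vale.Agent.P146.All2
import Vale.Agent.P146L.All

open MeasureTheory ProbabilityTheory Vale.Agent.P146

/-- Two-sided polynomial bounds for the variance of the SK free energy at low temperature. -/
theorem Vale.Agent.Results.P146.TwoSided.result :
    ∀ β : ℝ, 1 < β → ∀ ε : ℝ, 0 < ε → ∃ c C : ℝ, 0 < c ∧ ∃ n₀ : ℕ, ∀ n : ℕ, n₀ ≤ n →
      c * (n : ℝ) ^ (1 / 1000 : ℝ) ≤ variance (freeEnergy n β) (disorder n) ∧
      variance (freeEnergy n β) (disorder n) ≤ C * (n : ℝ) ^ (2 / 3 + ε) := by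
  intro β hβ ε hε
  obtain ⟨c, hc, n₀, h⟩ := Vale.Agent.P146L.lower_main β hβ
  obtain ⟨C, hC⟩ := Vale.Agent.P146.main2 β ε hε
  exact ⟨c, C, hc, max n₀ 1, fun n hn =>
    ⟨h n ((le_max_left _ _).trans hn), hC n ((le_max_right _ _).trans hn)⟩⟩
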